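import Mathlib
import Vale.Agent.Lib.P243.CapMain
import Vale.Agent.Lib.P243.R3.Defs
open MeasureTheory Set Vale.Agent.Lib.P243
open scoped Pointwise

/-!
# P243, module M1s: the sweep formula in the model space

For a compact convex set `K` of `ℝ × (ℝ × ℝ)` and a real `s`, the volume of the Minkowski sum
of `K` with the segment from `0` to `(s, 0)` equals the volume of `K` plus `|s|` times the area
of the projection of `K` to the last two coordinates.  The proof is Fubini: over each point of
the projection the chord of `K` is a compact interval, and the chord of the sum is that interval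
lengthened by `|s|`.
-/

namespace Vale.Agent.Lib.P243.R3

/-- Volume as the integral of the chord lengths. -/
lemma M1s_vol_fib {X : Set (ℝ × (ℝ × ℝ))} (hX : IsCompact X) :
    volume X = ∫⁻ q, volume (Cap.fib X q) := by
  rw [Measure.volume_eq_prod, Measure.prod_apply_symm hX.measurableSet]
  rfl

/-- The segment from `0` to `(s, 0)` is compact. -/
lemma M1s_segment_compact (s : ℝ) : IsCompact (segment ℝ (0 : ℝ × (ℝ × ℝ)) (s, 0)) := by
  rw [segment_eq_image]
  exact isCompact_Icc.image (by fun_prop)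

/-- The chord of the sum over `q`: translates of points of the chord of `K` by `θ * s`. -/
lemma M1s_mem_fib_sum {K : Set (ℝ × (ℝ × ℝ))} (s : ℝ) (q : ℝ × ℝ) (ζ : ℝ) :
    ζ ∈ Cap.fib (K + segment ℝ (0 : ℝ × (ℝ × ℝ)) (s, 0)) q ↔
      ∃ θ : ℝ, 0 ≤ θ ∧ θ ≤ 1 ∧ ζ - θ * s ∈ Cap.fib K q := by
  constructor
  · rintro ⟨k, hk, v, hv, hkv⟩
    rw [segment_eq_image] at hv
    obtain ⟨θ, ⟨h0, h1⟩, rfl⟩ := hv
    refine ⟨θ, h0, h1, ?_⟩
    have hk' : k = (ζ - θ * s, q) := by
      have e1 := congrArg Prod.fst hkv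
      have e2 := congrArg Prod.snd hkv
      simp only [smul_zero, zero_add, Prod.smul_mk, smul_eq_mul, Prod.fst_add,
        Prod.snd_add, add_zero] at e1 e2
      refine Prod.ext ?_ ?_
      · simp only
        linarith
      · simp only
        exact e2
    show (ζ - θ * s, q) ∈ K
    rw [← hk']
    exact hk
  · rintro ⟨θ, h0, h1, hk⟩
    refine ⟨(ζ - θ * s, q), hk, θ • ((s, 0) : ℝ × (ℝ × ℝ)), ?_, ?_⟩
    · rw [segment_eq_image]
      exact ⟨θ, ⟨h0, h1⟩, by simp⟩
    · refine Prod.ext ?_ ?_
      · simp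
      · simp

/-- Over a point of the projection the chord of `K` is a compact interval. -/
lemma M1s_fib_Icc {K : Set (ℝ × (ℝ × ℝ))} (hK : IsCompact K) (hc : Convex ℝ K) {q : ℝ × ℝ}
    (hq : q ∈ Prod.snd '' K) : ∃ a b : ℝ, a ≤ b ∧ Cap.fib K q = Icc a b := by
  have hne : (Cap.fib K q).Nonempty := Cap.fib_nonempty hq
  have hcp : IsCompact (Cap.fib K q) := Cap.fib_compact hK q
  have hcv : Convex ℝ (Cap.fib K q) := by
    intro x hx y hy a b ha hb hab
    have h := hc hx hy ha hb hab
    have e : a • ((x, q) : ℝ × (ℝ × ℝ)) + b • ((y, q) : ℝ × (ℝ × ℝ)) = (a • x + b • y, q) := by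
      refine Prod.ext ?_ ?_
      · simp
      · simp only [Prod.smul_mk, Prod.mk_add_mk]
        rw [← add_smul, hab, one_smul]
    rw [e] at h
    exact h
  have hI := eq_Icc_of_connected_compact ⟨hne, hcv.isPreconnected⟩ hcp
  refine ⟨sInf (Cap.fib K q), sSup (Cap.fib K q), ?_, hI⟩
  obtain ⟨x, hx⟩ := hne
  rw [hI] at hx
  exact hx.1.trans hx.2

/-- Lengthening an interval by the segment from `0` to `s`. -/
lemma M1s_Icc_sweep {a b : ℝ} (hab : a ≤ b) (s ζ : ℝ) :
    (∃ θ : ℝ, 0 ≤ θ ∧ θ ≤ 1 ∧ ζ - θ * s ∈ Icc a b) ↔ ζ ∈ Icc (a + min 0 s) (b + max 0 s) := by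
  constructor
  · rintro ⟨θ, h0, h1, h2, h3⟩
    have hlo : min 0 s ≤ θ * s := by
      rcases le_total 0 s with h | h
      · rw [min_eq_left h]
        positivity
      · rw [min_eq_right h]
        nlinarith
    have hhi : θ * s ≤ max 0 s := by
      rcases le_total 0 s with h | h
      · rw [max_eq_right h]
        nlinarith
      · rw [max_eq_left h]
        nlinarith
    exact ⟨by linarith, by linarith⟩
  · rintro ⟨h1, h2⟩
    rcases lt_trichotomy s 0 with hs | hs | hs
    · rw [min_eq_right hs.le] at h1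
      rw [max_eq_left hs.le] at h2
      by_cases hζ : a ≤ ζ
      · exact ⟨0, le_rfl, zero_le_one, by simpa using ⟨hζ, by linarith⟩⟩
      · have hζ' : ζ < a := not_le.1 hζ
        refine ⟨(ζ - a) / s, ?_, ?_, ?_⟩
        · exact div_nonneg_of_nonpos (by linarith) hs.le
        · rw [div_le_one_of_neg hs]
          linarith
        · rw [div_mul_cancel₀ _ hs.ne]
          exact ⟨by linarith, by linarith⟩
    · subst hs
      simp only [min_self, max_self, add_zero] at h1 h2
      exact ⟨0, le_rfl, zero_le_one, by simpa using ⟨h1, h2⟩⟩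
    · rw [min_eq_left hs.le] at h1
      rw [max_eq_right hs.le] at h2
      by_cases hζ : ζ ≤ b
      · exact ⟨0, le_rfl, zero_le_one, by simpa using ⟨by linarith, hζ⟩⟩
      · have hζ' : b < ζ := not_le.1 hζ
        refine ⟨(ζ - b) / s, ?_, ?_, ?_⟩
        · exact div_nonneg (by linarith) hs.le
        · rw [div_le_one hs]
          linarith
        · rw [div_mul_cancel₀ _ hs.ne']
          exact ⟨by linarith, by linarith⟩

/-- The sweep formula in the model space. -/
theorem M1s_model_sweep {K : Set (ℝ × (ℝ × ℝ))} (hK : IsCompact K) (hc : Convex ℝ K) (s : ℝ) :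
    volume (K + segment ℝ (0 : ℝ × (ℝ × ℝ)) (s, 0))
      = volume K + ENNReal.ofReal |s| * volume (Prod.snd '' K) := by
  have hS : IsCompact (K + segment ℝ (0 : ℝ × (ℝ × ℝ)) (s, 0)) :=
    hK.add (M1s_segment_compact s)
  have hP : MeasurableSet (Prod.snd '' K) := (hK.image continuous_snd).measurableSet
  have hfib : ∀ q, volume (Cap.fib (K + segment ℝ (0 : ℝ × (ℝ × ℝ)) (s, 0)) q)
      = volume (Cap.fib K q) + (Prod.snd '' K).indicator (fun _ => ENNReal.ofReal |s|) q := by
    intro q
    by_cases hq : q ∈ Prod.snd '' K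
    · rw [indicator_of_mem hq]
      obtain ⟨a, b, hab, hI⟩ := M1s_fib_Icc hK hc hq
      have hS' : Cap.fib (K + segment ℝ (0 : ℝ × (ℝ × ℝ)) (s, 0)) q
          = Icc (a + min 0 s) (b + max 0 s) := by
        ext ζ
        rw [M1s_mem_fib_sum, hI]
        exact M1s_Icc_sweep hab s ζ
      rw [hS', hI, Real.volume_Icc, Real.volume_Icc,
        ← ENNReal.ofReal_add (by linarith) (abs_nonneg s)]
      congr 1
      rcases le_total 0 s with h | h
      · rw [max_eq_right h, min_eq_left h, abs_of_nonneg h]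
        ring
      · rw [max_eq_left h, min_eq_right h, abs_of_nonpos h]
        ring
    · rw [indicator_of_notMem hq, add_zero]
      have e1 : Cap.fib K q = ∅ := by
        ext ζ
        simp only [mem_empty_iff_false, iff_false]
        intro hζ
        exact hq ⟨(ζ, q), hζ, rfl⟩
      have e2 : Cap.fib (K + segment ℝ (0 : ℝ × (ℝ × ℝ)) (s, 0)) q = ∅ := by
        ext ζ
        simp only [mem_empty_iff_false, iff_false]
        rw [M1s_mem_fib_sum, e1]
        rintro ⟨θ, -, -, h⟩
        exact h
      rw [e1, e2]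
  have hmeas : Measurable (fun q : ℝ × ℝ => volume (Cap.fib K q)) :=
    measurable_measure_prodMk_right hK.measurableSet
  rw [M1s_vol_fib hS, M1s_vol_fib hK, lintegral_congr hfib, lintegral_add_left hmeas,
    lintegral_indicator_const hP]

end Vale.Agent.Lib.P243.R3
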